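import Vale.Agent.P300.Spec.Geo

/-!
# P300, block D3: the base identity of the charts `5`, `6`, `15` and the uniqueness of lifts (helper540)

The charts `5`, `6`, `15` have the same base chamber `0 < λ < x < 1`; over a common real point their
lifts with the same label `s` agree.  Two continuous maps to `U_S` on a preconnected set with the same
projection, equal at one point, are equal.
-/

open Set Topology Filter Complex

namespace Vale.Agent.P300.H540

open Vale.Agent.P300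

variable {G : Type} [Group G]

/-- The general form: two charts with the same base chamber agree over the same real point. -/
theorem lift_base_eq {r : TOR.Arr G} {κ κ' : ℂ × ℂ → ℂ × ℂ} {C : TOR.Ch} {a b a' b' : G}
    (N : Spec.NodeLifts r κ C a b) (N' : Spec.NodeLifts r κ' C a' b')
    (hR : ∀ x y : ℝ, x < 0 → y < 0 → ((x : ℂ), (y : ℂ)) ∈ H142.Rt)
    (S : Type) [MulAction G S] [TopologicalSpace S] [DiscreteTopology S] (s : S)
    {x y x' y' : ℝ} (hx : x < 0) (hy : y < 0) (hx' : x' < 0) (hy' : y' < 0)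
    (he : κ (exp x, exp y) = κ' (exp x', exp y')) :
    N.L S ((x : ℂ), (y : ℂ)) s = N'.L S ((x' : ℂ), (y' : ℂ)) s := by
  have h1 := N.pr S s _ (hR x y hx hy)
  have h2 := N'.pr S s _ (hR x' y' hx' hy')
  have h3 := N.base S s x y hx hy
  have h4 := N'.base S s x' y' hx' hy'
  refine r.ext_crd (C := C) (Subtype.ext ?_) ?_ ?_
  · rw [h1, h2]; exact he
  · rw [h1]; exact h3.1
  · rw [h3.2, h4.2]

theorem real_mem_Rt (x y : ℝ) (hx : x < 0) (hy : y < 0) : ((x : ℂ), (y : ℂ)) ∈ H142.Rt := by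
  have e1 : Real.exp x < 1 := Real.exp_lt_one_iff.2 hx
  have e2 : Real.exp y < 1 := Real.exp_lt_one_iff.2 hy
  have e3 : Real.exp x * Real.exp y < 1 := by
    rw [← Real.exp_add]; exact Real.exp_lt_one_iff.2 (by linarith)
  show (exp (x : ℂ), exp (y : ℂ)) ∈ H142.R
  intro t ht
  rw [← ofReal_exp, ← ofReal_exp]
  show ((Real.exp x : ℝ) : ℂ) ≠ t ∧ ((Real.exp y : ℝ) : ℂ) ≠ t ∧
    ((Real.exp x : ℝ) : ℂ) * ((Real.exp y : ℝ) : ℂ) ≠ t
  refine ⟨?_, ?_, ?_⟩
  · intro h
    have h' : Real.exp x = t := ofReal_injective h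
    linarith
  · intro h
    have h' : Real.exp y = t := ofReal_injective h
    linarith
  · intro h
    have h' : Real.exp x * Real.exp y = t := ofReal_injective (by rw [ofReal_mul]; exact h)
    linarith

/-- **Base identity of the charts 5 and 6.** -/
theorem base65 {r : TOR.Arr G} (h : Spec.NodeSpec r) (S : Type) [MulAction G S]
    [TopologicalSpace S] [DiscreteTopology S] (s : S) {y t : ℝ} (hy : 0 < y) (hy1 : y < 1)
    (ht : 0 < t) (ht1 : t < 1) :
    (Spec.lifts h 6).L S (((Real.log y : ℝ) : ℂ), ((Real.log t : ℝ) : ℂ)) s =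
      (Spec.lifts h 5).L S (((Real.log ((1 - y) / (1 - y * t)) : ℝ) : ℂ),
        ((Real.log t : ℝ) : ℂ)) s := by
  have hyt : y * t < 1 := by nlinarith
  have h1 : 0 < (1 - y) / (1 - y * t) := div_pos (by linarith) (by linarith)
  have h2 : (1 - y) / (1 - y * t) < 1 := by
    rw [div_lt_one (by linarith)]
    nlinarith
  refine lift_base_eq (C := Spec.cham 5) (Spec.lifts h 6) (Spec.lifts h 5) real_mem_Rt S s
    (Real.log_neg hy hy1) (Real.log_neg ht ht1) (Real.log_neg h1 h2) (Real.log_neg ht ht1) ?_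
  show H142.kap 6 _ = H142.kap 5 _
  rw [← ofReal_exp, ← ofReal_exp, ← ofReal_exp, Real.exp_log hy, Real.exp_log ht,
    Real.exp_log h1]
  show ((t : ℂ), (t : ℂ) * (1 - (y : ℂ)) / (1 - (y : ℂ) * (t : ℂ))) =
    ((t : ℂ), (((1 - y) / (1 - y * t) : ℝ) : ℂ) * (t : ℂ))
  refine Prod.ext rfl ?_
  show (t : ℂ) * (1 - (y : ℂ)) / (1 - (y : ℂ) * (t : ℂ)) =
    (((1 - y) / (1 - y * t) : ℝ) : ℂ) * (t : ℂ)
  push_cast
  ring

/-- **Base identity of the charts 5 and 15.** -/
theorem baseX5 {r : TOR.Arr G} (h : Spec.NodeSpec r) (S : Type) [MulAction G S]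
    [TopologicalSpace S] [DiscreteTopology S] (s : S) {y t : ℝ} (hy : 0 < y) (hy1 : y < 1)
    (ht : 0 < t) (ht1 : t < 1) :
    (Spec.lifts h 15).L S (((Real.log t : ℝ) : ℂ), ((Real.log y : ℝ) : ℂ)) s =
      (Spec.lifts h 5).L S (((Real.log t : ℝ) : ℂ),
        ((Real.log ((1 - y) / (1 - t * y)) : ℝ) : ℂ)) s := by
  have hyt : t * y < 1 := by nlinarith
  have h1 : 0 < (1 - y) / (1 - t * y) := div_pos (by linarith) (by linarith)
  have h2 : (1 - y) / (1 - t * y) < 1 := by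
    rw [div_lt_one (by linarith)]
    nlinarith
  refine lift_base_eq (C := Spec.cham 5) (Spec.lifts h 15) (Spec.lifts h 5) real_mem_Rt S s
    (Real.log_neg ht ht1) (Real.log_neg hy hy1) (Real.log_neg ht ht1) (Real.log_neg h1 h2) ?_
  show H142.kapX _ = H142.kap 5 _
  rw [← ofReal_exp, ← ofReal_exp, ← ofReal_exp, Real.exp_log hy, Real.exp_log ht,
    Real.exp_log h1]
  show ((1 - (y : ℂ)) / (1 - (t : ℂ) * (y : ℂ)), (t : ℂ) * (1 - (y : ℂ)) / (1 - (t : ℂ) * (y : ℂ))) =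
    ((((1 - y) / (1 - t * y) : ℝ) : ℂ), (t : ℂ) * (((1 - y) / (1 - t * y) : ℝ) : ℂ))
  refine Prod.ext ?_ ?_
  · show (1 - (y : ℂ)) / (1 - (t : ℂ) * (y : ℂ)) = (((1 - y) / (1 - t * y) : ℝ) : ℂ)
    push_cast
    ring
  · show (t : ℂ) * (1 - (y : ℂ)) / (1 - (t : ℂ) * (y : ℂ)) =
      (t : ℂ) * (((1 - y) / (1 - t * y) : ℝ) : ℂ)
    push_cast
    ring

/-- Base identity of the charts 5 and 6, in the form of helper196's `lim` (`base1`). -/
theorem base1 {r : TOR.Arr G} (h : Spec.NodeSpec r) (S : Type) [MulAction G S]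
    [TopologicalSpace S] [DiscreteTopology S] (s : S) (u v u' v' : ℝ) (hu : 0 < u) (hu1 : u < 1)
    (hv : 0 < v) (hv1 : v < 1) (hu' : 0 < u') (hu1' : u' < 1) (hv' : 0 < v') (hv1' : v' < 1)
    (he : H142.kap 5 ((u : ℂ), (v : ℂ)) = H142.kap 6 ((u' : ℂ), (v' : ℂ))) :
    (Spec.lifts h 5).L S (((Real.log u : ℝ) : ℂ), ((Real.log v : ℝ) : ℂ)) s =
      (Spec.lifts h 6).L S (((Real.log u' : ℝ) : ℂ), ((Real.log v' : ℝ) : ℂ)) s := by
  refine lift_base_eq (C := Spec.cham 5) (Spec.lifts h 5) (Spec.lifts h 6) real_mem_Rt S s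
    (Real.log_neg hu hu1) (Real.log_neg hv hv1) (Real.log_neg hu' hu1') (Real.log_neg hv' hv1') ?_
  show H142.kap 5 _ = H142.kap 6 _
  rw [← ofReal_exp, ← ofReal_exp, ← ofReal_exp, ← ofReal_exp, Real.exp_log hu, Real.exp_log hv,
    Real.exp_log hu', Real.exp_log hv']
  exact he

/-- Base identity of the charts 5 and 15, in the form of helper196's `lim` (`base2`). -/
theorem base2 {r : TOR.Arr G} (h : Spec.NodeSpec r) (S : Type) [MulAction G S]
    [TopologicalSpace S] [DiscreteTopology S] (s : S) (u v u' v' : ℝ) (hu : 0 < u) (hu1 : u < 1)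
    (hv : 0 < v) (hv1 : v < 1) (hu' : 0 < u') (hu1' : u' < 1) (hv' : 0 < v') (hv1' : v' < 1)
    (he : H142.kap 5 ((u : ℂ), (v : ℂ)) = H142.kapX ((u' : ℂ), (v' : ℂ))) :
    (Spec.lifts h 5).L S (((Real.log u : ℝ) : ℂ), ((Real.log v : ℝ) : ℂ)) s =
      (Spec.lifts h 15).L S (((Real.log u' : ℝ) : ℂ), ((Real.log v' : ℝ) : ℂ)) s := by
  refine lift_base_eq (C := Spec.cham 5) (Spec.lifts h 5) (Spec.lifts h 15) real_mem_Rt S s
    (Real.log_neg hu hu1) (Real.log_neg hv hv1) (Real.log_neg hu' hu1') (Real.log_neg hv' hv1') ?_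
  show H142.kap 5 _ = H142.kapX _
  rw [← ofReal_exp, ← ofReal_exp, ← ofReal_exp, ← ofReal_exp, Real.exp_log hu, Real.exp_log hv,
    Real.exp_log hu', Real.exp_log hv']
  exact he

/-- **Uniqueness.**  Two continuous maps to `U_S` on a preconnected set with the same projection,
equal at one point, are equal. -/
theorem eqOn_of_pr {r : TOR.Arr G} {S : Type} [MulAction G S] [TopologicalSpace S]
    [DiscreteTopology S] {T : Type*} [TopologicalSpace T] {A : Set T} (hA : IsPreconnected A)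
    {f g : T → r.Tot S} (hf : ContinuousOn f A) (hg : ContinuousOn g A)
    (he : ∀ z ∈ A, ((r.pr (f z) : TOR.Arr.UT) : ℂ × ℂ) = ((r.pr (g z) : TOR.Arr.UT) : ℂ × ℂ))
    {a : T} (ha : a ∈ A) (hfa : f a = g a) : EqOn f g A :=
  r.isCoveringMap_pr.eqOn_of_comp_eqOn hA hf hg (fun z hz => Subtype.ext (he z hz)) ha hfa

end Vale.Agent.P300.H540
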