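import Vale.Agent.P300.H540.Base
import Vale.Agent.P300.H196.Lim

/-!
# P300, block D3: helper196's `lim` for the lifts of `NodeSpec` (helper540)

All the hypotheses of helper196's `lim` on the lifts (continuity, projection, base identities,
monodromies) come from `Spec.NodeSpec`.  What remains: the three extensions `H0`, `H1`, `H2` and the
order `m` of the two monodromies on `S`.
-/

open Set Topology Filter Complex

namespace Vale.Agent.P300.H540

open Vale.Agent.P300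

variable {G : Type} [Group G]

/-- **[LIM] for `NodeSpec`.** -/
theorem lim_node {r : TOR.Arr G} (h : Spec.NodeSpec r) {S : Type} [MulAction G S]
    [TopologicalSpace S] [DiscreteTopology S] {Z : Type*} [TopologicalSpace Z] [T2Space Z]
    {ι : r.Tot S → Z} {m : ℕ} (hm : 0 < m) {H0 H1 H2 : S → ℂ × ℂ → Z}
    (cH0 : ∀ s, ContinuousOn (H0 s) (H753.Om H142.R 1 1))
    (cH1 : ∀ s, ContinuousOn (H1 s) (H753.Om H142.R m 1))
    (cH2 : ∀ s, ContinuousOn (H2 s) (H753.Om H142.R 1 m))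
    (eH0 : ∀ s, ∀ x ∈ H753.Omp H142.R 1 1, H0 s x = ι ((Spec.lifts h 5).L S (log x.1, log x.2) s))
    (eH1 : ∀ s, ∀ x ∈ H753.Omp H142.R m 1, H1 s x = ι ((Spec.lifts h 6).L S (m * log x.1, log x.2) s))
    (eH2 : ∀ s, ∀ x ∈ H753.Omp H142.R 1 m, H2 s x = ι ((Spec.lifts h 15).L S (log x.1, m * log x.2) s))
    (hc : (MulAction.toPermHom G S ((Spec.toA r).wa 6)) ^ m = 1)
    (hc' : (MulAction.toPermHom G S ((Spec.toA r).wb 15)) ^ m = 1) :
    (∀ s r', r' ≠ 0 → r' ^ m ∈ H196.Slit → |arg r'| < Real.pi / m →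
      H1 s (r', 0) = H0 s (1 - r' ^ m, 0)) ∧
    (∀ s r', r' ^ m ∈ H196.Slit → H1 s (exp (2 * Real.pi * I / m) * r', 0) =
      H1 ((Spec.toA r).wa 6 • s) (r', 0)) ∧
    (∀ s r', r' ≠ 0 → r' ^ m ∈ H196.Slit → |arg r'| < Real.pi / m →
      H2 s (0, r') = H0 s (0, 1 - r' ^ m)) ∧
    (∀ s r', r' ^ m ∈ H196.Slit → H2 s (0, exp (2 * Real.pi * I / m) * r') =
      H2 ((Spec.toA r).wb 15 • s) (0, r')) := by
  have e5 : Spec.kapE 5 = H142.kap 5 := Spec.kapE_castSucc 5
  have e6 : Spec.kapE 6 = H142.kap 6 := Spec.kapE_castSucc 6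
  have eX : Spec.kapE 15 = H142.kapX := Spec.kapE_last
  refine H196.lim (S := S) (π := (r.pr : r.Tot S → TOR.Arr.UT)) r.isCoveringMap_pr
    (val := (Subtype.val : TOR.Arr.UT → ℂ × ℂ)) Subtype.val_injective
    (L0 := fun z s => (Spec.lifts h 5).L S z s) (L1 := fun z s => (Spec.lifts h 6).L S z s)
    (L2 := fun z s => (Spec.lifts h 15).L S z s)
    (fun s => (Spec.lifts h 5).cont S s) (fun s => (Spec.lifts h 6).cont S s)
    (fun s => (Spec.lifts h 15).cont S s)
    (fun z hz s => ((Spec.lifts h 5).pr S s z hz).trans (congrFun e5 _))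
    (fun z hz s => ((Spec.lifts h 6).pr S s z hz).trans (congrFun e6 _))
    (fun z hz s => ((Spec.lifts h 15).pr S s z hz).trans (congrFun eX _))
    (fun s u v u' v' a1 a2 a3 a4 a5 a6 a7 a8 he => base1 h S s u v u' v' a1 a2 a3 a4 a5 a6 a7 a8 he)
    (fun s u v u' v' a1 a2 a3 a4 a5 a6 a7 a8 he => base2 h S s u v u' v' a1 a2 a3 a4 a5 a6 a7 a8 he)
    (ι := ι) hm cH0 cH1 cH2 eH0 eH1 eH2
    (c := MulAction.toPermHom G S ((Spec.toA r).wa 6))
    (c' := MulAction.toPermHom G S ((Spec.toA r).wb 15))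
    (fun z hz s => (Spec.lifts h 6).u S s z hz) hc
    (fun z hz s => (Spec.lifts h 15).v S s z hz) hc'

end Vale.Agent.P300.H540
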